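import Vale.Agent.Lib.P335.Defs
import Vale.Agent.Lib.P335.helper26.Abstract

/-!
Resampling two disjoint blocks of vertex pairs commutes.

A block is a symmetric relation `S` on the vertices (a set of potential edges).  A key `κ`
on `Omega n d` *forgets* `S` when two graphs have the same key exactly when they agree on
all pairs outside `S`; then `cexp κ` resamples the edges inside `S` given the rest of the
graph.  If `S` and `T` are disjoint, the two resamplings commute (`block_comm`).
-/

namespace Vale.Agent.Lib.P335.H25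

open Finset
open scoped Classical
open Vale.Agent.Lib.P335 Vale.Agent.Lib.P335.Bip

variable {n : ℕ}

/-- The graph that agrees with `G2` on the pairs of the block `T` and with `G'` elsewhere. -/
def mixG (T : Fin n → Fin n → Prop) (hT : ∀ a b, T a b → T b a) (G2 G' : SimpleGraph (Fin n)) :
    SimpleGraph (Fin n) where
  Adj a b := (T a b ∧ G2.Adj a b) ∨ (¬ T a b ∧ G'.Adj a b)
  symm := ⟨fun a b h => by
    rcases h with ⟨h1, h2⟩ | ⟨h1, h2⟩
    · exact Or.inl ⟨hT a b h1, h2.symm⟩
    · exact Or.inr ⟨fun h => h1 (hT b a h), h2.symm⟩⟩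
  loopless := ⟨fun a h => by
    rcases h with ⟨_, h2⟩ | ⟨_, h2⟩
    · exact G2.loopless.irrefl a h2
    · exact G'.loopless.irrefl a h2⟩

theorem mixG_adj (T : Fin n → Fin n → Prop) (hT : ∀ a b, T a b → T b a)
    (G2 G' : SimpleGraph (Fin n)) (a b : Fin n) :
    (mixG T hT G2 G').Adj a b ↔ (T a b ∧ G2.Adj a b) ∨ (¬ T a b ∧ G'.Adj a b) := Iff.rfl

theorem degree_eq_card (G : SimpleGraph (Fin n)) (v : Fin n) :
    G.degree v = (univ.filter (fun b => G.Adj v b)).card := by
  rw [← SimpleGraph.card_neighborFinset_eq_degree, SimpleGraph.neighborFinset_eq_filter]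

/-- The degree of `v` splits into the contribution of the block `T` and the rest. -/
theorem degree_block (T : Fin n → Fin n → Prop) (G : SimpleGraph (Fin n)) (v : Fin n) :
    G.degree v = (univ.filter (fun b => T v b ∧ G.Adj v b)).card
      + (univ.filter (fun b => ¬ T v b ∧ G.Adj v b)).card := by
  rw [degree_eq_card, ← Finset.card_filter_add_card_filter_not (p := fun b => T v b)]
  congr 2
  · ext b
    simp only [Finset.mem_filter, Finset.mem_univ, true_and]
    tauto
  · ext b
    simp only [Finset.mem_filter, Finset.mem_univ, true_and]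
    tauto

theorem degree_mixG (T : Fin n → Fin n → Prop) (hT : ∀ a b, T a b → T b a)
    (G2 G' : SimpleGraph (Fin n)) (v : Fin n) :
    (mixG T hT G2 G').degree v = (univ.filter (fun b => T v b ∧ G2.Adj v b)).card
      + (univ.filter (fun b => ¬ T v b ∧ G'.Adj v b)).card := by
  rw [degree_block T (mixG T hT G2 G') v]
  congr 2
  · ext b
    simp only [Finset.mem_filter, Finset.mem_univ, true_and, mixG_adj]
    tauto
  · ext b
    simp only [Finset.mem_filter, Finset.mem_univ, true_and, mixG_adj]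
    tauto

/-- Degree bookkeeping for the mixed graph: `G1`, `G2` agree outside `T`, `G'` agrees with `G1`
on `T`, and all three have degree `k` at `v`; then so has the mixed graph. -/
theorem degree_mixG_eq (T : Fin n → Fin n → Prop) (hT : ∀ a b, T a b → T b a)
    {G1 G2 G' : SimpleGraph (Fin n)} {v : Fin n} {k : ℕ}
    (h1 : G1.degree v = k) (h2 : G2.degree v = k) (h' : G'.degree v = k)
    (h12 : ∀ a b, ¬ T a b → (G1.Adj a b ↔ G2.Adj a b))
    (hT' : ∀ a b, T a b → (G'.Adj a b ↔ G1.Adj a b)) :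
    (mixG T hT G2 G').degree v = k := by
  rw [degree_mixG]
  rw [degree_block T G1 v] at h1
  rw [degree_block T G2 v] at h2
  rw [degree_block T G' v] at h'
  have e1 : univ.filter (fun b => ¬ T v b ∧ G2.Adj v b)
      = univ.filter (fun b => ¬ T v b ∧ G1.Adj v b) := by
    ext b
    simp only [Finset.mem_filter, Finset.mem_univ, true_and]
    constructor
    · rintro ⟨hb, hadj⟩
      exact ⟨hb, (h12 v b hb).mpr hadj⟩
    · rintro ⟨hb, hadj⟩
      exact ⟨hb, (h12 v b hb).mp hadj⟩
  have e2 : univ.filter (fun b => T v b ∧ G'.Adj v b)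
      = univ.filter (fun b => T v b ∧ G1.Adj v b) := by
    ext b
    simp only [Finset.mem_filter, Finset.mem_univ, true_and]
    constructor
    · rintro ⟨hb, hadj⟩
      exact ⟨hb, (hT' v b hb).mp hadj⟩
    · rintro ⟨hb, hadj⟩
      exact ⟨hb, (hT' v b hb).mpr hadj⟩
  rw [e1] at h2
  rw [e2] at h'
  omega

/-- The mixed graph as an element of `Omega n d` (when its degrees are right). -/
noncomputable def mixO {d : Fin n → ℕ} (T : Fin n → Fin n → Prop) (hT : ∀ a b, T a b → T b a)
    (G2 G' : Omega n d) : Omega n d :=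
  if h : ∀ v, (mixG T hT G2.1 G'.1).degree v = d v then ⟨mixG T hT G2.1 G'.1, h⟩ else G'

theorem mixO_val {d : Fin n → ℕ} (T : Fin n → Fin n → Prop) (hT : ∀ a b, T a b → T b a)
    (G1 G2 G' : Omega n d)
    (h12 : ∀ a b, ¬ T a b → (G1.1.Adj a b ↔ G2.1.Adj a b))
    (hT' : ∀ a b, T a b → (G'.1.Adj a b ↔ G1.1.Adj a b)) :
    (mixO T hT G2 G').1 = mixG T hT G2.1 G'.1 := by
  have h : ∀ v, (mixG T hT G2.1 G'.1).degree v = d v := fun v =>
    degree_mixG_eq T hT (G1.2 v) (G2.2 v) (G'.2 v) h12 hT'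
  unfold mixO
  rw [dif_pos h]

/-- **Disjoint blocks commute.** If `κ` forgets exactly the block `S` and `κ'` forgets exactly
the block `T`, and the blocks are disjoint, then the conditional expectations commute. -/
theorem block_comm {d : Fin n → ℕ} {K K' : Type*} [DecidableEq K] [DecidableEq K']
    (S T : Fin n → Fin n → Prop) (hT : ∀ a b, T a b → T b a) (hST : ∀ a b, S a b → ¬ T a b)
    (κ : Omega n d → K) (κ' : Omega n d → K')
    (hκ : ∀ G G' : Omega n d, κ G = κ G' ↔ ∀ a b, ¬ S a b → (G.1.Adj a b ↔ G'.1.Adj a b))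
    (hκ' : ∀ G G' : Omega n d, κ' G = κ' G' ↔ ∀ a b, ¬ T a b → (G.1.Adj a b ↔ G'.1.Adj a b))
    (f : Omega n d → ℝ) :
    cexp κ (cexp κ' f) = cexp κ' (cexp κ f) := by
  apply cexp_comm_of_preserves κ κ'
  intro g hg G1 G2 h12
  have h12' : ∀ a b, ¬ T a b → (G1.1.Adj a b ↔ G2.1.Adj a b) := (hκ' G1 G2).mp h12
  have h21' : ∀ a b, ¬ T a b → (G2.1.Adj a b ↔ G1.1.Adj a b) := fun a b h => (h12' a b h).symm
  -- general facts about the transport map between the two fibres
  have key : ∀ (Ga Gb : Omega n d), (∀ a b, ¬ T a b → (Ga.1.Adj a b ↔ Gb.1.Adj a b)) →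
      ∀ G' : Omega n d, κ G' = κ Ga →
        (mixO T hT Gb G').1 = mixG T hT Gb.1 G'.1 ∧ κ (mixO T hT Gb G') = κ Gb ∧
          κ' (mixO T hT Gb G') = κ' G' := by
    intro Ga Gb hab G' hG'
    have hS' : ∀ a b, ¬ S a b → (G'.1.Adj a b ↔ Ga.1.Adj a b) := (hκ G' Ga).mp hG'
    have hT' : ∀ a b, T a b → (G'.1.Adj a b ↔ Ga.1.Adj a b) :=
      fun a b h => hS' a b (fun hs => hST a b hs h)
    have hval := mixO_val T hT Ga Gb G' hab hT'
    refine ⟨hval, ?_, ?_⟩
    · rw [hκ]
      intro a b hs
      rw [hval, mixG_adj]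
      by_cases ht : T a b
      · simp [ht]
      · have := hS' a b hs
        have := hab a b ht
        simp only [ht, false_and, not_false_eq_true, true_and, false_or]
        tauto
    · rw [hκ']
      intro a b ht
      rw [hval, mixG_adj]
      simp [ht]
  have inv : ∀ (Ga Gb : Omega n d), (∀ a b, ¬ T a b → (Ga.1.Adj a b ↔ Gb.1.Adj a b)) →
      ∀ G' : Omega n d, κ G' = κ Ga → mixO T hT Ga (mixO T hT Gb G') = G' := by
    intro Ga Gb hab G' hG'
    have hS' : ∀ a b, ¬ S a b → (G'.1.Adj a b ↔ Ga.1.Adj a b) := (hκ G' Ga).mp hG'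
    have hT' : ∀ a b, T a b → (G'.1.Adj a b ↔ Ga.1.Adj a b) :=
      fun a b h => hS' a b (fun hs => hST a b hs h)
    obtain ⟨hv1, hk1, _⟩ := key Ga Gb hab G' hG'
    have hba : ∀ a b, ¬ T a b → (Gb.1.Adj a b ↔ Ga.1.Adj a b) := fun a b h => (hab a b h).symm
    obtain ⟨hv2, _, _⟩ := key Gb Ga hba (mixO T hT Gb G') hk1
    apply Subtype.ext
    rw [hv2, hv1]
    ext a b
    rw [mixG_adj, mixG_adj]
    by_cases ht : T a b
    · have := hT' a b ht
      simp only [ht, true_and, not_true_eq_false, false_and, or_false]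
      tauto
    · simp [ht]
  rw [cexp_apply, cexp_apply]
  have hsum : ∑ G' ∈ univ.filter (fun G' => κ G' = κ G1), g G'
      = ∑ G'' ∈ univ.filter (fun G'' => κ G'' = κ G2), g G'' := by
    apply Finset.sum_bij' (fun G' _ => mixO T hT G2 G') (fun G'' _ => mixO T hT G1 G'')
    · intro G' hG'
      rw [Finset.mem_filter] at hG' ⊢
      exact ⟨Finset.mem_univ _, (key G1 G2 h12' G' hG'.2).2.1⟩
    · intro G'' hG''
      rw [Finset.mem_filter] at hG'' ⊢
      exact ⟨Finset.mem_univ _, (key G2 G1 h21' G'' hG''.2).2.1⟩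
    · intro G' hG'
      rw [Finset.mem_filter] at hG'
      exact inv G1 G2 h12' G' hG'.2
    · intro G'' hG''
      rw [Finset.mem_filter] at hG''
      exact inv G2 G1 h21' G'' hG''.2
    · intro G' hG'
      rw [Finset.mem_filter] at hG'
      exact (hg _ _ (key G1 G2 h12' G' hG'.2).2.2).symm
  have hcard : (univ.filter (fun G' => κ G' = κ G1)).card
      = (univ.filter (fun G'' => κ G'' = κ G2)).card := by
    apply Finset.card_bij' (fun G' _ => mixO T hT G2 G') (fun G'' _ => mixO T hT G1 G'')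
    · intro G' hG'
      rw [Finset.mem_filter] at hG' ⊢
      exact ⟨Finset.mem_univ _, (key G1 G2 h12' G' hG'.2).2.1⟩
    · intro G'' hG''
      rw [Finset.mem_filter] at hG'' ⊢
      exact ⟨Finset.mem_univ _, (key G2 G1 h21' G'' hG''.2).2.1⟩
    · intro G' hG'
      rw [Finset.mem_filter] at hG'
      exact inv G1 G2 h12' G' hG'.2
    · intro G'' hG''
      rw [Finset.mem_filter] at hG''
      exact inv G2 G1 h21' G'' hG''.2
  rw [hsum, hcard]

end Vale.Agent.Lib.P335.H25
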