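import Mathlib

/-!
The Johnson-type inequality (J) on one fibre, in an abstract involution-system form.

A finite set `Φ` of states carries bits `s G z` indexed by a finite set `A` of active
indices, and maps `τ z w` acting on the bits as the transposition of `z` and `w`.
For `z ≠ w` let `X z w` be the set of states whose bits at `z` and `w` differ.  Then
`∑_{z,w} (∑_{G ∈ X z w} (f G - mean f))^2 / |X z w| ≤ (1/4) ∑_{z ≠ w} ∑_G (f G - f (τ z w G))^2`.
-/

namespace Vale.Agent.Lib.P335.H25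

open Finset

section algebra

variable {ι : Type*} [DecidableEq ι]

omit [DecidableEq ι] in
theorem sum_sq_sub (T : Finset ι) (c : ι → ℝ) :
    ∑ z ∈ T, ∑ r ∈ T, (c z - c r) ^ 2
      = 2 * (T.card : ℝ) * ∑ z ∈ T, c z ^ 2 - 2 * (∑ z ∈ T, c z) ^ 2 := by
  have h : ∀ z ∈ T, ∑ r ∈ T, (c z - c r) ^ 2
      = (T.card : ℝ) * c z ^ 2 - 2 * c z * ∑ r ∈ T, c r + ∑ r ∈ T, c r ^ 2 := by
    intro z _
    have h1 : ∀ r ∈ T, (c z - c r) ^ 2 = c z ^ 2 - 2 * c z * c r + c r ^ 2 := fun r _ => by ring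
    rw [Finset.sum_congr rfl h1, Finset.sum_add_distrib, Finset.sum_sub_distrib,
      Finset.sum_const, ← Finset.mul_sum, nsmul_eq_mul]
  rw [Finset.sum_congr rfl h, Finset.sum_add_distrib, Finset.sum_sub_distrib, ← Finset.mul_sum,
    Finset.sum_const, nsmul_eq_mul, ← Finset.sum_mul, ← Finset.mul_sum]
  ring

/-- Poincare inequality on the triangular graph, in ordered form. -/
theorem tri_poincare (A : Finset ι) (a : ι → ι → ℝ) (hsymm : ∀ z w, a z w = a w z)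
    (hdiag : ∀ z, a z z = 0) (hsum : ∑ z ∈ A, ∑ w ∈ A, a z w = 0) (hm : 3 ≤ A.card) :
    (A.card : ℝ) * ∑ z ∈ A, ∑ w ∈ A, a z w ^ 2
      ≤ ∑ w ∈ A, ∑ z ∈ A.erase w, ∑ r ∈ A.erase w, (a z w - a r w) ^ 2 := by
  have hm3 : (3 : ℝ) ≤ (A.card : ℝ) := by exact_mod_cast hm
  set m : ℝ := (A.card : ℝ) with hmdef
  set b : ι → ℝ := fun w => ∑ z ∈ A, a z w with hbdef
  set S : ℝ := ∑ z ∈ A, ∑ w ∈ A, a z w ^ 2 with hSdef
  set B : ℝ := ∑ w ∈ A, b w ^ 2 with hBdef
  have hR : ∑ w ∈ A, ∑ z ∈ A.erase w, ∑ r ∈ A.erase w, (a z w - a r w) ^ 2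
      = 2 * (m - 1) * S - 2 * B := by
    have hw : ∀ w ∈ A, ∑ z ∈ A.erase w, ∑ r ∈ A.erase w, (a z w - a r w) ^ 2
        = 2 * (m - 1) * ∑ z ∈ A, a z w ^ 2 - 2 * b w ^ 2 := by
      intro w hw
      rw [sum_sq_sub (A.erase w) (fun z => a z w)]
      have h1 : ∑ z ∈ A.erase w, a z w ^ 2 = ∑ z ∈ A, a z w ^ 2 := by
        rw [← Finset.add_sum_erase A (fun z => a z w ^ 2) hw, hdiag]
        simp
      have h2 : ∑ z ∈ A.erase w, a z w = b w := by
        rw [hbdef]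
        simp only
        rw [← Finset.add_sum_erase A (fun z => a z w) hw, hdiag]
        simp
      have h3 : ((A.erase w).card : ℝ) = m - 1 := by
        rw [Finset.card_erase_of_mem hw, Nat.cast_sub (by omega), Nat.cast_one]
      rw [h1, h2, h3]
    rw [Finset.sum_congr rfl hw, Finset.sum_sub_distrib, ← Finset.mul_sum, ← Finset.mul_sum]
    have hS' : ∑ w ∈ A, ∑ z ∈ A, a z w ^ 2 = S := by
      rw [hSdef, Finset.sum_comm]
    rw [hS']
  have hb : ∀ z, ∑ w ∈ A, a z w = b z := fun z =>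
    Finset.sum_congr rfl (fun w _ => hsymm z w)
  have hbsum : ∑ w ∈ A, b w = 0 := by
    rw [hbdef]
    simp only
    rw [Finset.sum_comm]
    exact hsum
  have e1 : ∑ z ∈ A, ∑ w ∈ A, a z w * (b z + b w) = 2 * B := by
    have h1 : ∀ z ∈ A, ∑ w ∈ A, a z w * (b z + b w) = b z * b z + ∑ w ∈ A, a z w * b w := by
      intro z _
      have : ∀ w ∈ A, a z w * (b z + b w) = a z w * b z + a z w * b w := fun w _ => by ring
      rw [Finset.sum_congr rfl this, Finset.sum_add_distrib, ← Finset.sum_mul, hb z]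
    rw [Finset.sum_congr rfl h1, Finset.sum_add_distrib, Finset.sum_comm]
    have h2 : ∀ w ∈ A, ∑ z ∈ A, a z w * b w = b w * b w := by
      intro w _
      rw [← Finset.sum_mul]
    rw [Finset.sum_congr rfl h2, hBdef]
    have : ∀ w ∈ A, b w * b w = b w ^ 2 := fun w _ => by ring
    rw [Finset.sum_congr rfl this]
    ring
  have e2 : ∑ z ∈ A, ∑ w ∈ A, (b z + b w) ^ 2 = 2 * m * B := by
    have h1 : ∀ z ∈ A, ∑ w ∈ A, (b z + b w) ^ 2 = m * b z ^ 2 + 2 * b z * 0 + B := by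
      intro z _
      have : ∀ w ∈ A, (b z + b w) ^ 2 = b z ^ 2 + 2 * b z * b w + b w ^ 2 := fun w _ => by ring
      rw [Finset.sum_congr rfl this, Finset.sum_add_distrib, Finset.sum_add_distrib,
        Finset.sum_const, ← Finset.mul_sum, hbsum, nsmul_eq_mul]
    rw [Finset.sum_congr rfl h1, Finset.sum_add_distrib, Finset.sum_add_distrib, ← Finset.mul_sum,
      Finset.sum_const, nsmul_eq_mul]
    simp only [mul_zero, Finset.sum_const_zero, add_zero]
    ring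
  have e0 : ∑ z ∈ A, ∑ w ∈ A, ((m - 2) * a z w - (b z + b w)) ^ 2
      = (m - 2) ^ 2 * S - 2 * (m - 2) * (2 * B) + 2 * m * B := by
    have h1 : ∀ z ∈ A, ∀ w ∈ A, ((m - 2) * a z w - (b z + b w)) ^ 2
        = (m - 2) ^ 2 * a z w ^ 2 - 2 * (m - 2) * (a z w * (b z + b w)) + (b z + b w) ^ 2 :=
      fun z _ w _ => by ring
    rw [Finset.sum_congr rfl (fun z hz => Finset.sum_congr rfl (h1 z hz))]
    simp only [Finset.sum_add_distrib, Finset.sum_sub_distrib, ← Finset.mul_sum]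
    rw [e1, e2]
  have sos : 0 ≤ ∑ z ∈ A, ∑ w ∈ A.erase z, ((m - 2) * a z w - (b z + b w)) ^ 2 :=
    Finset.sum_nonneg (fun z _ => Finset.sum_nonneg (fun w _ => sq_nonneg _))
  have e3 : ∑ z ∈ A, ∑ w ∈ A.erase z, ((m - 2) * a z w - (b z + b w)) ^ 2
      = (m - 2) ^ 2 * S - 2 * (m - 2) * (2 * B) + 2 * m * B - 4 * B := by
    have h1 : ∀ z ∈ A, ∑ w ∈ A.erase z, ((m - 2) * a z w - (b z + b w)) ^ 2
        = ∑ w ∈ A, ((m - 2) * a z w - (b z + b w)) ^ 2 - 4 * b z ^ 2 := by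
      intro z hz
      rw [← Finset.add_sum_erase A (fun w => ((m - 2) * a z w - (b z + b w)) ^ 2) hz, hdiag]
      ring
    rw [Finset.sum_congr rfl h1, Finset.sum_sub_distrib, e0, ← Finset.mul_sum]
  rw [e3] at sos
  have hpos : 0 < m - 2 := by linarith
  have hkey : 0 ≤ (m - 2) * S - 2 * B := by
    have h : 0 ≤ (m - 2) * ((m - 2) * S - 2 * B) := by nlinarith
    exact nonneg_of_mul_nonneg_right h hpos
  rw [hR]
  nlinarith

end algebra


section fibre

variable {Ω ι : Type*} [DecidableEq Ω] [DecidableEq ι]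

/-- The states of `Φ` whose bits at `z` and `w` differ. -/
def XX (Φ : Finset Ω) (s : Ω → ι → Prop) [∀ G z, Decidable (s G z)] (z w : ι) : Finset Ω :=
  Φ.filter (fun G => ¬ (s G z ↔ s G w))

variable (Φ : Finset Ω) (A : Finset ι) (s : Ω → ι → Prop) [∀ G z, Decidable (s G z)]
  (τ : ι → ι → Ω → Ω)

omit [DecidableEq Ω] [DecidableEq ι] in
theorem mem_XX (z w : ι) (G : Ω) : G ∈ XX Φ s z w ↔ G ∈ Φ ∧ ¬ (s G z ↔ s G w) := by
  unfold XX
  rw [Finset.mem_filter]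

omit [DecidableEq Ω] [DecidableEq ι] in
theorem XX_comm (z w : ι) : XX Φ s z w = XX Φ s w z := by
  ext G
  rw [mem_XX, mem_XX]
  constructor
  · rintro ⟨h1, h2⟩
    exact ⟨h1, fun h => h2 h.symm⟩
  · rintro ⟨h1, h2⟩
    exact ⟨h1, fun h => h2 h.symm⟩

omit [DecidableEq Ω] [DecidableEq ι] in
theorem XX_self (z : ι) : XX Φ s z z = ∅ := by
  ext G
  rw [mem_XX]
  simp

omit [DecidableEq Ω] in
theorem card_XX_swap
    (hmem : ∀ z ∈ A, ∀ w ∈ A, ∀ G ∈ Φ, τ z w G ∈ Φ)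
    (hinv : ∀ z ∈ A, ∀ w ∈ A, ∀ G ∈ Φ, τ z w (τ z w G) = G)
    (hbit : ∀ z ∈ A, ∀ w ∈ A, z ≠ w → ∀ G ∈ Φ, ∀ v ∈ A,
      (s (τ z w G) v ↔ s G (Equiv.swap z w v)))
    {z r w : ι} (hz : z ∈ A) (hr : r ∈ A) (hw : w ∈ A) (hzr : z ≠ r) (hzw : z ≠ w)
    (hrw : r ≠ w) : (XX Φ s z w).card = (XX Φ s r w).card := by
  have b1 : ∀ G ∈ Φ, (s (τ z r G) z ↔ s G r) := by
    intro G hG
    have := hbit z hz r hr hzr G hG z hz
    rwa [Equiv.swap_apply_left] at this
  have b2 : ∀ G ∈ Φ, (s (τ z r G) r ↔ s G z) := by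
    intro G hG
    have := hbit z hz r hr hzr G hG r hr
    rwa [Equiv.swap_apply_right] at this
  have b3 : ∀ G ∈ Φ, (s (τ z r G) w ↔ s G w) := by
    intro G hG
    have := hbit z hz r hr hzr G hG w hw
    rwa [Equiv.swap_apply_of_ne_of_ne (Ne.symm hzw) (Ne.symm hrw)] at this
  apply Finset.card_bij' (fun G _ => τ z r G) (fun G _ => τ z r G)
  · intro G hG
    rw [mem_XX] at hG ⊢
    refine ⟨hmem z hz r hr G hG.1, ?_⟩
    rw [b2 G hG.1, b3 G hG.1]
    exact hG.2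
  · intro G hG
    rw [mem_XX] at hG ⊢
    refine ⟨hmem z hz r hr G hG.1, ?_⟩
    rw [b1 G hG.1, b3 G hG.1]
    exact hG.2
  · intro G hG
    rw [mem_XX] at hG
    exact hinv z hz r hr G hG.1
  · intro G hG
    rw [mem_XX] at hG
    exact hinv z hz r hr G hG.1

omit [DecidableEq Ω] in
theorem card_XX_const
    (hmem : ∀ z ∈ A, ∀ w ∈ A, ∀ G ∈ Φ, τ z w G ∈ Φ)
    (hinv : ∀ z ∈ A, ∀ w ∈ A, ∀ G ∈ Φ, τ z w (τ z w G) = G)
    (hbit : ∀ z ∈ A, ∀ w ∈ A, z ≠ w → ∀ G ∈ Φ, ∀ v ∈ A,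
      (s (τ z w G) v ↔ s G (Equiv.swap z w v)))
    {z w z' w' : ι} (hz : z ∈ A) (hw : w ∈ A) (hz' : z' ∈ A) (hw' : w' ∈ A) (hzw : z ≠ w)
    (hzw' : z' ≠ w') : (XX Φ s z w).card = (XX Φ s z' w').card := by
  -- moving the first index
  have step : ∀ {a b c : ι}, a ∈ A → b ∈ A → c ∈ A → a ≠ c → b ≠ c →
      (XX Φ s a c).card = (XX Φ s b c).card := by
    intro a b c ha hb hc hac hbc
    by_cases hab : a = b
    · rw [hab]
    · exact card_XX_swap Φ A s τ hmem hinv hbit ha hb hc hab hac hbc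
  by_cases h1 : z' = w
  · -- z' = w, so w' ≠ w
    subst h1
    by_cases h2 : w' = z
    · subst h2
      rw [XX_comm]
    · -- XX z z' = XX z' z -> XX w' z = XX z w' -> XX z' w'
      calc (XX Φ s z z').card = (XX Φ s z' z).card := by rw [XX_comm]
        _ = (XX Φ s w' z).card := step hz' hw' hz (Ne.symm hzw) h2
        _ = (XX Φ s z w').card := by rw [XX_comm]
        _ = (XX Φ s z' w').card := step hz hz' hw' (Ne.symm h2) hzw'
  · calc (XX Φ s z w).card = (XX Φ s z' w).card := step hz hz' hw hzw h1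
      _ = (XX Φ s w z').card := by rw [XX_comm]
      _ = (XX Φ s w' z').card := step hw hw' hz' (Ne.symm h1) (Ne.symm hzw')
      _ = (XX Φ s z' w').card := by rw [XX_comm]

omit [DecidableEq Ω] [DecidableEq ι] in
theorem sum_a_zero
    (hcnt : ∀ G ∈ Φ, ∀ G' ∈ Φ, (A.filter (s G)).card = (A.filter (s G')).card)
    (g : Ω → ℝ) (hg : ∑ G ∈ Φ, g G = 0) :
    ∑ z ∈ A, ∑ w ∈ A, ∑ G ∈ XX Φ s z w, g G = 0 := by
  have hN : ∀ G, ∑ z ∈ A, ∑ w ∈ A, (if ¬ (s G z ↔ s G w) then (1 : ℝ) else 0)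
      = 2 * ((A.filter (s G)).card : ℝ) * ((A.card : ℝ) - ((A.filter (s G)).card : ℝ)) := by
    intro G
    have hk : ((A.filter (fun w => ¬ s G w)).card : ℝ)
        = (A.card : ℝ) - ((A.filter (s G)).card : ℝ) := by
      have := Finset.card_filter_add_card_filter_not (s := A) (s G)
      have h2 : (((A.filter (s G)).card + (A.filter (fun w => ¬ s G w)).card : ℕ) : ℝ)
          = (A.card : ℝ) := by rw [this]
      push_cast at h2
      linarith
    have hin : ∀ z ∈ A, ∑ w ∈ A, (if ¬ (s G z ↔ s G w) then (1 : ℝ) else 0)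
        = if s G z then (A.card : ℝ) - ((A.filter (s G)).card : ℝ)
          else ((A.filter (s G)).card : ℝ) := by
      intro z _
      by_cases hz : s G z
      · simp only [hz, true_iff, if_true]
        rw [Finset.sum_boole, hk]
      · simp only [hz, false_iff, not_not, if_false]
        rw [Finset.sum_boole]
    rw [Finset.sum_congr rfl hin, Finset.sum_ite, Finset.sum_const, Finset.sum_const]
    simp only [nsmul_eq_mul]
    rw [hk]
    ring
  have h1 : ∑ z ∈ A, ∑ w ∈ A, ∑ G ∈ XX Φ s z w, g G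
      = ∑ G ∈ Φ, g G * ∑ z ∈ A, ∑ w ∈ A, (if ¬ (s G z ↔ s G w) then (1 : ℝ) else 0) := by
    have h2 : ∀ z ∈ A, ∀ w ∈ A, ∑ G ∈ XX Φ s z w, g G
        = ∑ G ∈ Φ, g G * (if ¬ (s G z ↔ s G w) then (1 : ℝ) else 0) := by
      intro z _ w _
      unfold XX
      rw [Finset.sum_filter]
      apply Finset.sum_congr rfl
      intro G _
      split_ifs <;> simp
    rw [Finset.sum_congr rfl (fun z hz => Finset.sum_congr rfl (h2 z hz))]
    have h3 : ∀ z ∈ A, ∑ w ∈ A, ∑ G ∈ Φ, g G * (if ¬ (s G z ↔ s G w) then (1 : ℝ) else 0)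
        = ∑ G ∈ Φ, ∑ w ∈ A, g G * (if ¬ (s G z ↔ s G w) then (1 : ℝ) else 0) :=
      fun z _ => Finset.sum_comm
    rw [Finset.sum_congr rfl h3, Finset.sum_comm]
    apply Finset.sum_congr rfl
    intro G _
    rw [Finset.mul_sum]
    apply Finset.sum_congr rfl
    intro z _
    rw [Finset.mul_sum]
  rw [h1]
  rcases Φ.eq_empty_or_nonempty with hΦ | ⟨G0, hG0⟩
  · rw [hΦ]
    simp
  · have h4 : ∀ G ∈ Φ, g G * ∑ z ∈ A, ∑ w ∈ A, (if ¬ (s G z ↔ s G w) then (1 : ℝ) else 0)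
        = g G * (2 * ((A.filter (s G0)).card : ℝ)
            * ((A.card : ℝ) - ((A.filter (s G0)).card : ℝ))) := by
      intro G hG
      rw [hN G, hcnt G hG G0 hG0]
    rw [Finset.sum_congr rfl h4, ← Finset.sum_mul, hg, zero_mul]

omit [DecidableEq Ω] in
theorem diff_bound
    (hmem : ∀ z ∈ A, ∀ w ∈ A, ∀ G ∈ Φ, τ z w G ∈ Φ)
    (hinv : ∀ z ∈ A, ∀ w ∈ A, ∀ G ∈ Φ, τ z w (τ z w G) = G)
    (hbit : ∀ z ∈ A, ∀ w ∈ A, z ≠ w → ∀ G ∈ Φ, ∀ v ∈ A,
      (s (τ z w G) v ↔ s G (Equiv.swap z w v)))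
    (f : Ω → ℝ) (c : ℝ)
    {z r w : ι} (hz : z ∈ A) (hr : r ∈ A) (hw : w ∈ A) (hzr : z ≠ r) (hzw : z ≠ w)
    (hrw : r ≠ w) :
    4 * (∑ G ∈ XX Φ s z w, (f G - c) - ∑ G ∈ XX Φ s r w, (f G - c)) ^ 2
      ≤ ((XX Φ s z r).card : ℝ) * ∑ G ∈ Φ, (f G - f (τ z r G)) ^ 2 := by
  set h : Ω → ℝ := fun G => (if ¬ (s G z ↔ s G w) then (1 : ℝ) else 0)
      - (if ¬ (s G r ↔ s G w) then (1 : ℝ) else 0) with hh
  set g : Ω → ℝ := fun G => f G - c with hg
  have e1 : ∑ G ∈ XX Φ s z w, (f G - c) - ∑ G ∈ XX Φ s r w, (f G - c)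
      = ∑ G ∈ Φ, g G * h G := by
    unfold XX
    rw [Finset.sum_filter, Finset.sum_filter, ← Finset.sum_sub_distrib]
    apply Finset.sum_congr rfl
    intro G _
    simp only [hh, hg]
    split_ifs <;> ring
  have b1 : ∀ G ∈ Φ, (s (τ z r G) z ↔ s G r) := by
    intro G hG
    have := hbit z hz r hr hzr G hG z hz
    rwa [Equiv.swap_apply_left] at this
  have b2 : ∀ G ∈ Φ, (s (τ z r G) r ↔ s G z) := by
    intro G hG
    have := hbit z hz r hr hzr G hG r hr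
    rwa [Equiv.swap_apply_right] at this
  have b3 : ∀ G ∈ Φ, (s (τ z r G) w ↔ s G w) := by
    intro G hG
    have := hbit z hz r hr hzr G hG w hw
    rwa [Equiv.swap_apply_of_ne_of_ne (Ne.symm hzw) (Ne.symm hrw)] at this
  have e2 : ∀ G ∈ Φ, h (τ z r G) = - h G := by
    intro G hG
    simp only [hh, b1 G hG, b2 G hG, b3 G hG]
    ring
  have e3 : ∑ G ∈ Φ, g (τ z r G) * h (τ z r G) = ∑ G ∈ Φ, g G * h G :=
    Finset.sum_bij' (fun G _ => τ z r G) (fun G _ => τ z r G) (fun G hG => hmem z hz r hr G hG)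
      (fun G hG => hmem z hz r hr G hG) (fun G hG => hinv z hz r hr G hG)
      (fun G hG => hinv z hz r hr G hG) (fun G _ => rfl)
  have e4 : 2 * ∑ G ∈ Φ, g G * h G = ∑ G ∈ Φ, (f G - f (τ z r G)) * h G := by
    have h1 : ∑ G ∈ Φ, g (τ z r G) * h G = - ∑ G ∈ Φ, g G * h G := by
      rw [← e3, ← Finset.sum_neg_distrib]
      apply Finset.sum_congr rfl
      intro G hG
      rw [e2 G hG]
      ring
    have h2 : ∑ G ∈ Φ, (f G - f (τ z r G)) * h G
        = ∑ G ∈ Φ, g G * h G - ∑ G ∈ Φ, g (τ z r G) * h G := by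
      rw [← Finset.sum_sub_distrib]
      apply Finset.sum_congr rfl
      intro G _
      simp only [hg]
      ring
    rw [h2, h1]
    ring
  have e5 : ∑ G ∈ Φ, h G ^ 2 = ((XX Φ s z r).card : ℝ) := by
    have h1 : ∀ G ∈ Φ, h G ^ 2 = if ¬ (s G z ↔ s G r) then (1 : ℝ) else 0 := by
      intro G _
      simp only [hh]
      by_cases h1 : s G z <;> by_cases h2 : s G r <;> by_cases h3 : s G w <;> simp [h1, h2, h3]
    rw [Finset.sum_congr rfl h1, Finset.sum_boole]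
    rfl
  have cs := Finset.sum_mul_sq_le_sq_mul_sq Φ (fun G => f G - f (τ z r G)) h
  rw [e1]
  have e6 : 4 * (∑ G ∈ Φ, g G * h G) ^ 2 = (∑ G ∈ Φ, (f G - f (τ z r G)) * h G) ^ 2 := by
    rw [← e4]
    ring
  rw [e6, ← e5, mul_comm]
  exact cs

omit [DecidableEq Ω] in
/-- **Inequality (J) on one fibre.** -/
theorem J_fibre
    (hmem : ∀ z ∈ A, ∀ w ∈ A, ∀ G ∈ Φ, τ z w G ∈ Φ)
    (hinv : ∀ z ∈ A, ∀ w ∈ A, ∀ G ∈ Φ, τ z w (τ z w G) = G)
    (hbit : ∀ z ∈ A, ∀ w ∈ A, z ≠ w → ∀ G ∈ Φ, ∀ v ∈ A,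
      (s (τ z w G) v ↔ s G (Equiv.swap z w v)))
    (hcnt : ∀ G ∈ Φ, ∀ G' ∈ Φ, (A.filter (s G)).card = (A.filter (s G')).card)
    (f : Ω → ℝ) :
    ∑ z ∈ A, ∑ w ∈ A,
        (∑ G ∈ XX Φ s z w, (f G - (∑ G' ∈ Φ, f G') / (Φ.card : ℝ))) ^ 2 /
          ((XX Φ s z w).card : ℝ)
      ≤ (1 / 4) * ∑ z ∈ A, ∑ w ∈ A,
          if z ≠ w then ∑ G ∈ Φ, (f G - f (τ z w G)) ^ 2 else 0 := by
  set c : ℝ := (∑ G' ∈ Φ, f G') / (Φ.card : ℝ) with hc
  set a : ι → ι → ℝ := fun z w => ∑ G ∈ XX Φ s z w, (f G - c) with ha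
  set D : ι → ι → ℝ := fun z w => ∑ G ∈ Φ, (f G - f (τ z w G)) ^ 2 with hD
  have hDnn : ∀ z w, 0 ≤ D z w := fun z w => Finset.sum_nonneg (fun G _ => sq_nonneg _)
  have hTnn : ∀ z w, 0 ≤ (if z ≠ w then D z w else 0) := by
    intro z w
    split_ifs
    · exact hDnn z w
    · exact le_refl _
  have hRHS : 0 ≤ (1 / 4) * ∑ z ∈ A, ∑ w ∈ A, if z ≠ w then D z w else 0 :=
    mul_nonneg (by norm_num)
      (Finset.sum_nonneg (fun z _ => Finset.sum_nonneg (fun w _ => hTnn z w)))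
  have hgsum : ∑ G ∈ Φ, (f G - c) = 0 := by
    rw [Finset.sum_sub_distrib, Finset.sum_const, nsmul_eq_mul]
    rcases Φ.eq_empty_or_nonempty with hΦ | hΦ
    · rw [hΦ]
      simp
    · have : (Φ.card : ℝ) ≠ 0 := by
        exact_mod_cast (Finset.card_pos.2 hΦ).ne'
      rw [hc]
      field_simp
      ring
  have hasymm : ∀ z w, a z w = a w z := by
    intro z w
    simp only [ha, XX_comm Φ s z w]
  have hadiag : ∀ z, a z z = 0 := by
    intro z
    simp only [ha, XX_self, Finset.sum_empty]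
  have hasum : ∑ z ∈ A, ∑ w ∈ A, a z w = 0 :=
    sum_a_zero Φ A s hcnt (fun G => f G - c) hgsum
  change ∑ z ∈ A, ∑ w ∈ A, a z w ^ 2 / ((XX Φ s z w).card : ℝ)
      ≤ (1 / 4) * ∑ z ∈ A, ∑ w ∈ A, if z ≠ w then D z w else 0
  by_cases hm : A.card ≤ 2
  · have hzero : ∀ z ∈ A, ∀ w ∈ A, a z w = 0 := by
      intro z hz w hw
      by_cases hzw : z = w
      · rw [hzw]
        exact hadiag w
      · have hA : A = {z, w} := by
          symm
          apply Finset.eq_of_subset_of_card_le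
          · intro v hv
            rw [Finset.mem_insert, Finset.mem_singleton] at hv
            rcases hv with rfl | rfl <;> assumption
          · rw [Finset.card_pair hzw]
            exact hm
        rw [hA, Finset.sum_pair hzw, Finset.sum_pair hzw, Finset.sum_pair hzw, hadiag, hadiag,
          hasymm w z] at hasum
        linarith
    have hL : ∑ z ∈ A, ∑ w ∈ A, a z w ^ 2 / ((XX Φ s z w).card : ℝ) = 0 :=
      Finset.sum_eq_zero (fun z hz => Finset.sum_eq_zero (fun w hw => by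
        rw [hzero z hz w hw]
        simp))
    rw [hL]
    exact hRHS
  · push Not at hm
    have hm3 : 3 ≤ A.card := hm
    obtain ⟨z0, hz0, w0, hw0, hzw0⟩ : ∃ z0 ∈ A, ∃ w0 ∈ A, z0 ≠ w0 :=
      Finset.one_lt_card.1 (by omega)
    set ξ : ℝ := ((XX Φ s z0 w0).card : ℝ) with hξdef
    have hξ : ∀ z ∈ A, ∀ w ∈ A, z ≠ w → ((XX Φ s z w).card : ℝ) = ξ := by
      intro z hz w hw hzw
      rw [hξdef, card_XX_const Φ A s τ hmem hinv hbit hz hw hz0 hw0 hzw hzw0]
    have hL : ∑ z ∈ A, ∑ w ∈ A, a z w ^ 2 / ((XX Φ s z w).card : ℝ)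
        = (∑ z ∈ A, ∑ w ∈ A, a z w ^ 2) / ξ := by
      rw [Finset.sum_div]
      apply Finset.sum_congr rfl
      intro z hz
      rw [Finset.sum_div]
      apply Finset.sum_congr rfl
      intro w hw
      by_cases hzw : z = w
      · rw [hzw, hadiag]
        simp
      · rw [hξ z hz w hw hzw]
    rw [hL]
    by_cases hξ0 : ξ = 0
    · rw [hξ0, div_zero]
      exact hRHS
    have hξpos : 0 < ξ := lt_of_le_of_ne (Nat.cast_nonneg _) (Ne.symm hξ0)
    rw [div_le_iff₀ hξpos]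
    have h1 := tri_poincare A a hasymm hadiag hasum hm3
    have hnn : ∀ z r, 0 ≤ (if z ≠ r then ξ / 4 * D z r else 0) := by
      intro z r
      split_ifs
      · exact mul_nonneg (by positivity) (hDnn z r)
      · exact le_refl _
    have h2 : ∑ w ∈ A, ∑ z ∈ A.erase w, ∑ r ∈ A.erase w, (a z w - a r w) ^ 2
        ≤ ∑ _w ∈ A, ∑ z ∈ A, ∑ r ∈ A, (if z ≠ r then ξ / 4 * D z r else 0) := by
      apply Finset.sum_le_sum
      intro w hw
      calc ∑ z ∈ A.erase w, ∑ r ∈ A.erase w, (a z w - a r w) ^ 2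
          ≤ ∑ z ∈ A.erase w, ∑ r ∈ A.erase w, (if z ≠ r then ξ / 4 * D z r else 0) := by
            apply Finset.sum_le_sum
            intro z hz
            apply Finset.sum_le_sum
            intro r hr
            obtain ⟨hzw, hzA⟩ := Finset.mem_erase.1 hz
            obtain ⟨hrw, hrA⟩ := Finset.mem_erase.1 hr
            by_cases hzr : z = r
            · rw [hzr]
              simp
            · rw [if_pos hzr]
              have hb := diff_bound Φ A s τ hmem hinv hbit f c hzA hrA hw hzr hzw hrw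
              rw [hξ z hzA r hrA hzr] at hb
              have : (a z w - a r w) ^ 2
                  = (∑ G ∈ XX Φ s z w, (f G - c) - ∑ G ∈ XX Φ s r w, (f G - c)) ^ 2 := rfl
              rw [this]
              have hD' : D z r = ∑ G ∈ Φ, (f G - f (τ z r G)) ^ 2 := rfl
              rw [hD']
              linarith
        _ ≤ ∑ z ∈ A.erase w, ∑ r ∈ A, (if z ≠ r then ξ / 4 * D z r else 0) :=
            Finset.sum_le_sum (fun z _ =>
              Finset.sum_le_sum_of_subset_of_nonneg (Finset.erase_subset _ _)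
                (fun r _ _ => hnn z r))
        _ ≤ ∑ z ∈ A, ∑ r ∈ A, (if z ≠ r then ξ / 4 * D z r else 0) :=
            Finset.sum_le_sum_of_subset_of_nonneg (Finset.erase_subset _ _)
              (fun z _ _ => Finset.sum_nonneg (fun r _ => hnn z r))
    have h3 : ∑ _w ∈ A, ∑ z ∈ A, ∑ r ∈ A, (if z ≠ r then ξ / 4 * D z r else 0)
        = (A.card : ℝ) * (ξ / 4 * ∑ z ∈ A, ∑ r ∈ A, (if z ≠ r then D z r else 0)) := by
      rw [Finset.sum_const, nsmul_eq_mul]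
      congr 1
      rw [Finset.mul_sum]
      apply Finset.sum_congr rfl
      intro z _
      rw [Finset.mul_sum]
      apply Finset.sum_congr rfl
      intro r _
      split_ifs <;> simp
    have hmpos : (0 : ℝ) < (A.card : ℝ) := by
      have : 0 < A.card := by omega
      exact_mod_cast this
    have h4 := le_of_mul_le_mul_left (h1.trans (h2.trans h3.le)) hmpos
    linarith

end fibre

end Vale.Agent.Lib.P335.H25
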