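import Vale.Agent.Lib.P335.helper25.EdgeBlocks
import Vale.Agent.Lib.P335.helper72.GraphDefs

/-!
The three commutations needed for the pairwise inequality of the graph case, as instances
of `block_comm`.

For two disjoint vertex pairs `{x, y}` and `{z, w}`:
* the *coarse* key of `{x, y}` forgets all pairs meeting `{x, y}` (this is `gmask {x, y}`);
* the *fine* key of `{x, y}` forgets all pairs meeting `{x, y}` except the four cross pairs
  between `{x, y}` and `{z, w}` (this is `gmask {x, y}` together with the cross block).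
Fine keys of the two pairs commute, and the fine key of one pair commutes with the coarse key
of the other pair.
-/

namespace Vale.Agent.Lib.P335.H25

open Finset
open scoped Classical
open Vale.Agent.Lib.P335 Vale.Agent.Lib.P335.Bip Vale.Agent.Lib.P335.Gr

variable {n : ℕ}

/-- The pair `(a, b)` meets the vertex pair `{x, y}`. -/
def blkP (x y a b : Fin n) : Prop := a = x ∨ a = y ∨ b = x ∨ b = y

/-- The pair `(a, b)` is one of the four cross pairs between `{x, y}` and `{z, w}`. -/
def crs (x y z w a b : Fin n) : Prop :=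
  ((a = x ∨ a = y) ∧ (b = z ∨ b = w)) ∨ ((a = z ∨ a = w) ∧ (b = x ∨ b = y))

theorem blkP_symm (x y a b : Fin n) : blkP x y a b → blkP x y b a := by
  unfold blkP
  tauto

theorem crs_symm (x y z w a b : Fin n) : crs x y z w a b ↔ crs x y z w b a := by
  unfold crs
  tauto

theorem crs_swap (x y z w a b : Fin n) : crs z w x y a b ↔ crs x y z w a b := by
  unfold crs
  tauto

/-- A pair meeting both `{x, y}` and `{z, w}` is a cross pair (the two vertex pairs being
disjoint and the pair `(a, b)` having two distinct ends is not needed: a pair `(a, a)` cannot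
meet both). -/
theorem crs_of_blkP (x y z w a b : Fin n) (hxz : x ≠ z) (hxw : x ≠ w) (hyz : y ≠ z)
    (hyw : y ≠ w) (h1 : blkP x y a b) (h2 : blkP z w a b) : crs x y z w a b := by
  unfold blkP at h1 h2
  unfold crs
  rcases h1 with rfl | rfl | rfl | rfl <;> rcases h2 with h | h | h | h <;>
    first
    | exact absurd h hxz
    | exact absurd h hxw
    | exact absurd h hyz
    | exact absurd h hyw
    | (subst h; tauto)

/-- Kernel of the coarse key: `gmask {x, y}` forgets exactly the pairs meeting `{x, y}`. -/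
theorem gmask_pair_kernel (x y : Fin n) (G G' : SimpleGraph (Fin n)) :
    gmask {x, y} G = gmask {x, y} G' ↔
      ∀ a b, ¬ blkP x y a b → (G.Adj a b ↔ G'.Adj a b) := by
  rw [gmask_eq_iff]
  constructor
  · intro h a b hab
    apply h a b
    · intro ha
      rw [Finset.mem_insert, Finset.mem_singleton] at ha
      exact hab (by unfold blkP; tauto)
    · intro hb
      rw [Finset.mem_insert, Finset.mem_singleton] at hb
      exact hab (by unfold blkP; tauto)
  · intro h a b ha hb
    apply h a b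
    intro hab
    unfold blkP at hab
    rw [Finset.mem_insert, Finset.mem_singleton] at ha hb
    tauto

/-- Kernel of the fine key: `gmask {x, y}` together with the four cross entries forgets exactly
the pairs that meet `{x, y}` and are not cross pairs. -/
theorem fine_pair_kernel (x y z w : Fin n) (G G' : SimpleGraph (Fin n)) :
    (gmask {x, y} G = gmask {x, y} G' ∧ (G.Adj x z ↔ G'.Adj x z) ∧ (G.Adj x w ↔ G'.Adj x w) ∧
        (G.Adj y z ↔ G'.Adj y z) ∧ (G.Adj y w ↔ G'.Adj y w)) ↔
      ∀ a b, ¬ (blkP x y a b ∧ ¬ crs x y z w a b) → (G.Adj a b ↔ G'.Adj a b) := by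
  rw [gmask_pair_kernel]
  constructor
  · rintro ⟨h0, h1, h2, h3, h4⟩ a b hab
    by_cases hc : crs x y z w a b
    · unfold crs at hc
      rcases hc with ⟨ha | ha, hb | hb⟩ | ⟨ha | ha, hb | hb⟩ <;> subst ha <;> subst hb
      · exact h1
      · exact h2
      · exact h3
      · exact h4
      · rw [G.adj_comm, G'.adj_comm]
        exact h1
      · rw [G.adj_comm, G'.adj_comm]
        exact h3
      · rw [G.adj_comm, G'.adj_comm]
        exact h2
      · rw [G.adj_comm, G'.adj_comm]
        exact h4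
    · exact h0 a b (fun hp => hab ⟨hp, hc⟩)
  · intro h
    refine ⟨fun a b hab => h a b (fun hh => hab hh.1), ?_, ?_, ?_, ?_⟩
    · exact h x z (fun hh => hh.2 (by unfold crs; tauto))
    · exact h x w (fun hh => hh.2 (by unfold crs; tauto))
    · exact h y z (fun hh => hh.2 (by unfold crs; tauto))
    · exact h y w (fun hh => hh.2 (by unfold crs; tauto))

variable {d : Fin n → ℕ} {K K' : Type*} [DecidableEq K] [DecidableEq K']

/-- The fine keys of two disjoint vertex pairs commute. -/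
theorem comm_fine_fine (x y z w : Fin n) (hxz : x ≠ z) (hxw : x ≠ w) (hyz : y ≠ z)
    (hyw : y ≠ w) (lp : Omega n d → K) (lq : Omega n d → K')
    (hlp : ∀ G G' : Omega n d, lp G = lp G' ↔
      ∀ a b, ¬ (blkP x y a b ∧ ¬ crs x y z w a b) → (G.1.Adj a b ↔ G'.1.Adj a b))
    (hlq : ∀ G G' : Omega n d, lq G = lq G' ↔
      ∀ a b, ¬ (blkP z w a b ∧ ¬ crs x y z w a b) → (G.1.Adj a b ↔ G'.1.Adj a b))
    (f : Omega n d → ℝ) : cexp lp (cexp lq f) = cexp lq (cexp lp f) :=
  block_comm (fun a b => blkP x y a b ∧ ¬ crs x y z w a b)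
    (fun a b => blkP z w a b ∧ ¬ crs x y z w a b)
    (fun a b h => ⟨blkP_symm z w a b h.1, fun hc => h.2 ((crs_symm x y z w a b).mpr hc)⟩)
    (fun a b h1 h2 => h1.2 (crs_of_blkP x y z w a b hxz hxw hyz hyw h1.1 h2.1))
    lp lq hlp hlq f

/-- The fine key of `{x, y}` commutes with the coarse key of the disjoint pair `{z, w}`. -/
theorem comm_fine_coarse (x y z w : Fin n) (hxz : x ≠ z) (hxw : x ≠ w) (hyz : y ≠ z)
    (hyw : y ≠ w) (lp : Omega n d → K) (kq : Omega n d → K')
    (hlp : ∀ G G' : Omega n d, lp G = lp G' ↔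
      ∀ a b, ¬ (blkP x y a b ∧ ¬ crs x y z w a b) → (G.1.Adj a b ↔ G'.1.Adj a b))
    (hkq : ∀ G G' : Omega n d, kq G = kq G' ↔
      ∀ a b, ¬ blkP z w a b → (G.1.Adj a b ↔ G'.1.Adj a b))
    (f : Omega n d → ℝ) : cexp lp (cexp kq f) = cexp kq (cexp lp f) :=
  block_comm (fun a b => blkP x y a b ∧ ¬ crs x y z w a b) (fun a b => blkP z w a b)
    (fun a b h => blkP_symm z w a b h)
    (fun a b h1 h2 => h1.2 (crs_of_blkP x y z w a b hxz hxw hyz hyw h1.1 h2))
    lp kq hlp hkq f

/-- The cross block of `G` between `{x, y}` and `{z, w}` as four Booleans, in the order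
`xz, xw, yz, yw`. -/
noncomputable def cbt (x y z w : Fin n) (G : SimpleGraph (Fin n)) : Bool × Bool × Bool × Bool :=
  (decide (G.Adj x z), decide (G.Adj x w), decide (G.Adj y z), decide (G.Adj y w))

theorem cbt_eq_iff (x y z w : Fin n) (G G' : SimpleGraph (Fin n)) :
    cbt x y z w G = cbt x y z w G' ↔ ((G.Adj x z ↔ G'.Adj x z) ∧ (G.Adj x w ↔ G'.Adj x w) ∧
        (G.Adj y z ↔ G'.Adj y z) ∧ (G.Adj y w ↔ G'.Adj y w)) := by
  unfold cbt
  simp only [Prod.mk.injEq, decide_eq_decide]

/-- Kernel of the concrete fine key `(gmask {x, y} G, cbt x y z w G)`. -/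
theorem fineKey_kernel (x y z w : Fin n) (G G' : SimpleGraph (Fin n)) :
    (gmask {x, y} G, cbt x y z w G) = (gmask {x, y} G', cbt x y z w G') ↔
      ∀ a b, ¬ (blkP x y a b ∧ ¬ crs x y z w a b) → (G.Adj a b ↔ G'.Adj a b) := by
  rw [Prod.mk.injEq, cbt_eq_iff]
  exact fine_pair_kernel x y z w G G'

/-- Kernel of the concrete fine key of the second pair, `(gmask {z, w} G, cbt x y z w G)`
(same encoding of the cross block). -/
theorem fineKey_kernel' (x y z w : Fin n) (G G' : SimpleGraph (Fin n)) :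
    (gmask {z, w} G, cbt x y z w G) = (gmask {z, w} G', cbt x y z w G') ↔
      ∀ a b, ¬ (blkP z w a b ∧ ¬ crs x y z w a b) → (G.Adj a b ↔ G'.Adj a b) := by
  rw [Prod.mk.injEq, cbt_eq_iff]
  have h := fine_pair_kernel z w x y G G'
  have e : (∀ a b, ¬ (blkP z w a b ∧ ¬ crs z w x y a b) → (G.Adj a b ↔ G'.Adj a b)) ↔
      (∀ a b, ¬ (blkP z w a b ∧ ¬ crs x y z w a b) → (G.Adj a b ↔ G'.Adj a b)) := by
    constructor
    · intro h1 a b hab
      exact h1 a b (fun hh => hab ⟨hh.1, fun hc => hh.2 ((crs_swap x y z w a b).mpr hc)⟩)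
    · intro h1 a b hab
      exact h1 a b (fun hh => hab ⟨hh.1, fun hc => hh.2 ((crs_swap x y z w a b).mp hc)⟩)
  rw [← e, ← h]
  have c1 : (G.Adj z x ↔ G'.Adj z x) ↔ (G.Adj x z ↔ G'.Adj x z) := by
    rw [G.adj_comm z x, G'.adj_comm z x]
  have c2 : (G.Adj z y ↔ G'.Adj z y) ↔ (G.Adj y z ↔ G'.Adj y z) := by
    rw [G.adj_comm z y, G'.adj_comm z y]
  have c3 : (G.Adj w x ↔ G'.Adj w x) ↔ (G.Adj x w ↔ G'.Adj x w) := by
    rw [G.adj_comm w x, G'.adj_comm w x]
  have c4 : (G.Adj w y ↔ G'.Adj w y) ↔ (G.Adj y w ↔ G'.Adj y w) := by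
    rw [G.adj_comm w y, G'.adj_comm w y]
  rw [c1, c2, c3, c4]
  constructor
  · rintro ⟨h0, h1, h2, h3, h4⟩
    exact ⟨h0, h1, h3, h2, h4⟩
  · rintro ⟨h0, h1, h3, h2, h4⟩
    exact ⟨h0, h1, h2, h3, h4⟩

/-- `hTT` for the concrete keys. -/
theorem hTT_concrete (x y z w : Fin n) (hxz : x ≠ z) (hxw : x ≠ w) (hyz : y ≠ z)
    (hyw : y ≠ w) (f : Omega n d → ℝ) :
    cexp (fun G : Omega n d => (gmask {x, y} G.1, cbt x y z w G.1))
        (cexp (fun G : Omega n d => (gmask {z, w} G.1, cbt x y z w G.1)) f)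
      = cexp (fun G : Omega n d => (gmask {z, w} G.1, cbt x y z w G.1))
        (cexp (fun G : Omega n d => (gmask {x, y} G.1, cbt x y z w G.1)) f) :=
  comm_fine_fine x y z w hxz hxw hyz hyw _ _
    (fun G G' => fineKey_kernel x y z w G.1 G'.1)
    (fun G G' => fineKey_kernel' x y z w G.1 G'.1) f

/-- `hTpRq` for the concrete keys. -/
theorem hTpRq_concrete (x y z w : Fin n) (hxz : x ≠ z) (hxw : x ≠ w) (hyz : y ≠ z)
    (hyw : y ≠ w) (f : Omega n d → ℝ) :
    cexp (fun G : Omega n d => (gmask {x, y} G.1, cbt x y z w G.1))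
        (cexp (fun G : Omega n d => gmask {z, w} G.1) f)
      = cexp (fun G : Omega n d => gmask {z, w} G.1)
        (cexp (fun G : Omega n d => (gmask {x, y} G.1, cbt x y z w G.1)) f) :=
  comm_fine_coarse x y z w hxz hxw hyz hyw _ _
    (fun G G' => fineKey_kernel x y z w G.1 G'.1)
    (fun G G' => gmask_pair_kernel z w G.1 G'.1) f

/-- `hTqRp` for the concrete keys. -/
theorem hTqRp_concrete (x y z w : Fin n) (hxz : x ≠ z) (hxw : x ≠ w) (hyz : y ≠ z)
    (hyw : y ≠ w) (f : Omega n d → ℝ) :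
    cexp (fun G : Omega n d => (gmask {z, w} G.1, cbt x y z w G.1))
        (cexp (fun G : Omega n d => gmask {x, y} G.1) f)
      = cexp (fun G : Omega n d => gmask {x, y} G.1)
        (cexp (fun G : Omega n d => (gmask {z, w} G.1, cbt x y z w G.1)) f) := by
  refine comm_fine_coarse z w x y hxz.symm hyz.symm hxw.symm hyw.symm _ _ ?_
    (fun G G' => gmask_pair_kernel x y G.1 G'.1) f
  intro G G'
  rw [fineKey_kernel' x y z w G.1 G'.1]
  constructor
  · intro h1 a b hab
    exact h1 a b (fun hh => hab ⟨hh.1, fun hc => hh.2 ((crs_swap x y z w a b).mp hc)⟩)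
  · intro h1 a b hab
    exact h1 a b (fun hh => hab ⟨hh.1, fun hc => hh.2 ((crs_swap x y z w a b).mpr hc)⟩)

end Vale.Agent.Lib.P335.H25
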