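import Vale.Agent.Lib.P335.BridgeDefs

/-!
The split condition forces the split structure: if the degree vector `d` satisfies the
split condition on `U`, then in every graph with degrees `d` the set `U` is a clique and
its complement is an independent set.
-/

namespace Vale.Agent.Lib.P335.Bridge

open Finset
open scoped Classical
open Vale.Agent.Lib.P335

/-- The degree of `v` splits into the number of neighbours inside `U` and outside `U`. -/
theorem degree_split {n : ℕ} (G : SimpleGraph (Fin n)) (U : Finset (Fin n)) (v : Fin n) :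
    G.degree v =
      (U.filter (fun w => G.Adj v w)).card + (Uᶜ.filter (fun w => G.Adj v w)).card := by
  rw [← SimpleGraph.card_neighborFinset_eq_degree, SimpleGraph.neighborFinset_eq_filter]
  rw [← Finset.card_filter_add_card_filter_not (p := fun w => w ∈ U)]
  congr 2
  · ext w
    simp only [Finset.mem_filter, Finset.mem_univ, true_and]
    tauto
  · ext w
    simp only [Finset.mem_filter, Finset.mem_univ, true_and, Finset.mem_compl]
    tauto

theorem split_clique_indep {n : ℕ} {d : Fin n → ℕ} {U : Finset (Fin n)} (h : SplitCond d U)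
    (G : Omega n d) : IsSplitOn G.1 U := by
  obtain ⟨G, hG⟩ := G
  unfold SplitCond at h
  have hdeg : ∀ v, d v =
      (U.filter (fun w => G.Adj v w)).card + (Uᶜ.filter (fun w => G.Adj v w)).card :=
    fun v => by rw [← hG v]; exact degree_split G U v
  have hsub : ∀ u, U.filter (fun w => G.Adj u w) ⊆ U.erase u := by
    intro u w hw
    rw [Finset.mem_filter] at hw
    rw [Finset.mem_erase]
    refine ⟨fun e => ?_, hw.1⟩
    rw [e] at hw
    exact G.irrefl hw.2
  have hAle : ∀ u ∈ U, (U.filter (fun w => G.Adj u w)).card ≤ U.card - 1 := by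
    intro u hu
    rw [← Finset.card_erase_of_mem hu]
    exact Finset.card_le_card (hsub u)
  have hXX : ∑ u ∈ U, (Uᶜ.filter (fun w => G.Adj u w)).card =
      ∑ w ∈ Uᶜ, (U.filter (fun u => G.Adj w u)).card := by
    simp only [Finset.card_filter]
    rw [Finset.sum_comm]
    refine Finset.sum_congr rfl fun w _ => Finset.sum_congr rfl fun u _ => ?_
    simp only [G.adj_comm]
  have h1 : ∑ u ∈ U, d u = ∑ u ∈ U, (U.filter (fun w => G.Adj u w)).card +
      ∑ u ∈ U, (Uᶜ.filter (fun w => G.Adj u w)).card := by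
    rw [← Finset.sum_add_distrib]
    exact Finset.sum_congr rfl fun u _ => hdeg u
  have h2 : ∑ w ∈ Uᶜ, d w = ∑ w ∈ Uᶜ, (U.filter (fun u => G.Adj w u)).card +
      ∑ w ∈ Uᶜ, (Uᶜ.filter (fun w' => G.Adj w w')).card := by
    rw [← Finset.sum_add_distrib]
    exact Finset.sum_congr rfl fun u _ => hdeg u
  have h3 : ∑ u ∈ U, (U.filter (fun w => G.Adj u w)).card ≤ ∑ _u ∈ U, (U.card - 1) :=
    Finset.sum_le_sum hAle
  have h3' : ∑ _u ∈ U, (U.card - 1) = U.card * (U.card - 1) := by
    rw [Finset.sum_const, smul_eq_mul]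
  have h4 : ∑ u ∈ U, (U.filter (fun w => G.Adj u w)).card = ∑ _u ∈ U, (U.card - 1) ∧
      ∑ w ∈ Uᶜ, (Uᶜ.filter (fun w' => G.Adj w w')).card = 0 := by
    rw [h3'] at h3 ⊢
    generalize U.card * (U.card - 1) = K at h h3 ⊢
    omega
  obtain ⟨h5, h6⟩ := h4
  constructor
  · intro u hu u' hu' hne
    have hterm : ∀ u ∈ U, (U.filter (fun w => G.Adj u w)).card = U.card - 1 :=
      (Finset.sum_eq_sum_iff_of_le hAle).1 h5
    have heq : U.filter (fun w => G.Adj u w) = U.erase u :=
      Finset.eq_of_subset_of_card_le (hsub u)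
        (by rw [Finset.card_erase_of_mem hu]; exact (hterm u hu).ge)
    have hmem : u' ∈ U.erase u := Finset.mem_erase.2 ⟨hne.symm, hu'⟩
    rw [← heq] at hmem
    exact (Finset.mem_filter.1 hmem).2
  · intro w hw w' hw' hadj
    have hz : ∀ w ∈ Uᶜ, (Uᶜ.filter (fun w' => G.Adj w w')).card = 0 :=
      Finset.sum_eq_zero_iff.1 h6
    have hw0 := hz w (Finset.mem_compl.2 hw)
    rw [Finset.card_eq_zero, Finset.filter_eq_empty_iff] at hw0
    exact hw0 (Finset.mem_compl.2 hw') hadj

end Vale.Agent.Lib.P335.Bridge
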